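import Vale.Agent.Lib.P047F.IC.Rec

/-!
# P047 Part I.C: choice of the parameters
-/

open Finset Filter

namespace P047F

theorem ev_poly (c : ℝ) {a : ℝ} (ha : 0 < a) :
    ∀ᶠ n : ℕ in atTop, c * (n : ℝ) ^ 2 ≤ Real.exp (a * n) := by
  have h1 : (fun x : ℝ => x ^ 2) =o[atTop] (fun x => Real.exp (a * x)) :=
    isLittleO_pow_exp_pos_mul_atTop 2 ha
  have hc : 0 < (|c| + 1)⁻¹ := by positivity
  have h2 := h1.def hc
  have h3 := tendsto_natCast_atTop_atTop (R := ℝ) |>.eventually h2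
  filter_upwards [h3] with n hn
  rw [Real.norm_eq_abs, Real.norm_eq_abs, abs_of_nonneg (by positivity),
    abs_of_pos (Real.exp_pos _)] at hn
  have h4 : (|c| + 1) * (n : ℝ) ^ 2 ≤ Real.exp (a * n) := by
    calc (|c| + 1) * (n : ℝ) ^ 2 ≤ (|c| + 1) * ((|c| + 1)⁻¹ * Real.exp (a * n)) :=
          mul_le_mul_of_nonneg_left hn (by positivity)
      _ = Real.exp (a * n) := by
          rw [← mul_assoc, mul_inv_cancel₀ (by positivity), one_mul]
  refine le_trans ?_ h4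
  have := le_abs_self c
  have h5 : (0 : ℝ) ≤ (n : ℝ) ^ 2 := by positivity
  nlinarith

theorem ev_large (c : ℝ) {a : ℝ} (ha : 0 < a) : ∀ᶠ n : ℕ in atTop, c ≤ a * n := by
  have := (tendsto_natCast_atTop_atTop (R := ℝ)).const_mul_atTop ha
  exact this.eventually_ge_atTop c

/-- `G n ⌊73 n/200⌋ ≤ exp (-11 n/2500)` -/
theorem GG_le (n : ℕ) : GG n (mm n) ≤ Real.exp (-(11 / 2500 * (n : ℝ))) := by
  have hlog : 73 * Real.log 3 + 200 * Real.log (2 / 3) ≤ -(22 / 25) := by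
    have h1 : 73 * Real.log 3 + 200 * Real.log (2 / 3) = Real.log (3 ^ 73 * (2 / 3) ^ 200) := by
      rw [Real.log_mul (by positivity) (by positivity), Real.log_pow, Real.log_pow]
      norm_num
    rw [h1]
    have h2 : (3 : ℝ) ^ 73 * (2 / 3) ^ 200 ≤ Real.exp (-(22 / 25)) := by
      have h3 : Real.exp (22 / 25) ≤ 2.42 := by
        have h4 : Real.exp (22 / 25) ^ 25 ≤ (2.42 : ℝ) ^ 25 := by
          rw [← Real.exp_nat_mul]
          have h5 : Real.exp ((25 : ℕ) * (22 / 25)) = Real.exp 1 ^ 22 := by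
            rw [← Real.exp_nat_mul]
            norm_num
          rw [h5]
          calc Real.exp 1 ^ 22 ≤ 2.7182818286 ^ 22 := by
                have := Real.exp_one_lt_d9
                gcongr
            _ ≤ _ := by norm_num
        exact le_of_pow_le_pow_left₀ (by norm_num) (by norm_num) h4
      rw [Real.exp_neg]
      calc (3 : ℝ) ^ 73 * (2 / 3) ^ 200 ≤ (2.42 : ℝ)⁻¹ := by norm_num
        _ ≤ _ := inv_anti₀ (Real.exp_pos _) h3
    calc Real.log (3 ^ 73 * (2 / 3) ^ 200) ≤ Real.log (Real.exp (-(22 / 25))) :=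
          Real.log_le_log (by positivity) h2
      _ = _ := Real.log_exp _
  have hm : (mm n : ℝ) ≤ 73 * n / 200 := by
    unfold mm
    have : ((73 * n / 200 : ℕ) : ℝ) ≤ ((73 * n : ℕ) : ℝ) / ((200 : ℕ) : ℝ) := Nat.cast_div_le
    simpa using this
  have h3 : 0 ≤ Real.log 3 := Real.log_nonneg (by norm_num)
  have h4 : GG n (mm n) = Real.exp (mm n * Real.log 3 + n * Real.log (2 / 3)) := by
    unfold GG
    rw [Real.exp_add, Real.exp_nat_mul, Real.exp_nat_mul, Real.exp_log (by norm_num),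
      Real.exp_log (by norm_num)]
  rw [h4, Real.exp_le_exp]
  have h5 : (mm n : ℝ) * Real.log 3 ≤ 73 * n / 200 * Real.log 3 :=
    mul_le_mul_of_nonneg_right hm h3
  have h6 : (0 : ℝ) ≤ n := Nat.cast_nonneg n
  nlinarith

/-- bound for `2 L` -/
theorem two_L_le {C : ℝ} (hC : 1 ≤ C) {K n : ℕ} (hn1 : (1 : ℝ) ≤ n) {A0 : ℝ} (hA01 : 1 ≤ A0)
    {L E : ℝ} (hL : L = C * (n : ℝ) ^ 2 +
      8 * (K * (64 * (n : ℝ) * A0 * (2 * (n : ℝ) + 3) + 8)))
    (h1 : (2 * C + 16 * K * 328) * (n : ℝ) ^ 2 ≤ E) : 2 * L ≤ E * A0 := by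
  have hn2 : (1 : ℝ) ≤ (n : ℝ) ^ 2 := one_le_pow₀ hn1
  have hKnn : (0 : ℝ) ≤ K := Nat.cast_nonneg _
  have e2 : 2 * L ≤ (2 * C + 16 * K * 328) * (n : ℝ) ^ 2 * A0 := by
    rw [hL]
    have e3 : 64 * (n : ℝ) * A0 * (2 * (n : ℝ) + 3) + 8 ≤ 328 * ((n : ℝ) ^ 2 * A0) := by
      have e4 : (n : ℝ) ≤ (n : ℝ) ^ 2 := by nlinarith
      have e5 : 64 * (n : ℝ) * A0 * (2 * (n : ℝ) + 3) ≤ 64 * A0 * (5 * (n : ℝ) ^ 2) := by
        have : 64 * (n : ℝ) * A0 * (2 * (n : ℝ) + 3) =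
          64 * A0 * (2 * (n : ℝ) ^ 2 + 3 * n) := by ring
        rw [this]
        refine mul_le_mul_of_nonneg_left ?_ (by linarith)
        linarith
      have e6 : 1 ≤ (n : ℝ) ^ 2 * A0 := by nlinarith
      nlinarith
    have e7 : C * (n : ℝ) ^ 2 ≤ C * (n : ℝ) ^ 2 * A0 :=
      le_mul_of_one_le_right (by positivity) hA01
    calc 2 * (C * (n : ℝ) ^ 2 + 8 * (K * (64 * (n : ℝ) * A0 * (2 * (n : ℝ) + 3) + 8)))
        ≤ 2 * (C * (n : ℝ) ^ 2 * A0 + 8 * (K * (328 * ((n : ℝ) ^ 2 * A0)))) := by gcongr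
      _ = _ := by ring
  refine e2.trans ?_
  exact mul_le_mul_of_nonneg_right h1 (by linarith)

/-- bound for `4 ^ (t + 3)` -/
theorem four_pow_le {B t n : ℕ} (hBpos : (0 : ℝ) < B) (htB : (t : ℝ) ≤ n / B)
    (h2 : Real.log 64 ≤ 1 / (5 * (B : ℝ)) * n) :
    (4 : ℝ) ^ (t + 3) ≤ Real.exp (2 / B * n) := by
  have e1 : (4 : ℝ) ^ (t + 3) = Real.exp (Real.log 64 + t * Real.log 4) := by
    rw [Real.exp_add, Real.exp_log (by norm_num), Real.exp_nat_mul, Real.exp_log (by norm_num)]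
    ring
  rw [e1, Real.exp_le_exp]
  have hnB : (0 : ℝ) ≤ n / B := by positivity
  have e2 : Real.log 4 ≤ 7 / 5 := by
    have : (4 : ℝ) = 2 ^ 2 := by norm_num
    rw [this, Real.log_pow]
    have := Real.log_two_lt_d9
    push_cast
    linarith
  have e3 : (t : ℝ) * Real.log 4 ≤ n / B * (7 / 5) := by
    have : 0 ≤ Real.log 4 := Real.log_nonneg (by norm_num)
    exact mul_le_mul htB e2 this hnB
  have e4 : 1 / (5 * (B : ℝ)) * n = n / B * (1 / 5) := by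
    field_simp
  have e5 : 2 / (B : ℝ) * n = n / B * 2 := by ring
  rw [e4] at h2
  rw [e5]
  linarith

/-- the exponent is negative -/
theorem exp_mul_GG_lt {ε : ℝ} (hε2 : ε ≤ 1 / 250) {n : ℕ} (h4 : (1 : ℝ) ≤ 1 / 2500 * n) :
    Real.exp (ε * n) * GG n (mm n) < Real.log 2 := by
  have e1 : Real.exp (ε * n) * GG n (mm n) ≤ Real.exp (-(1 / 2500 * n)) := by
    calc Real.exp (ε * n) * GG n (mm n) ≤
          Real.exp (ε * n) * Real.exp (-(11 / 2500 * (n : ℝ))) :=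
          mul_le_mul_of_nonneg_left (GG_le n) (Real.exp_pos _).le
      _ = Real.exp (ε * n + -(11 / 2500 * (n : ℝ))) := by rw [← Real.exp_add]
      _ ≤ _ := by
          rw [Real.exp_le_exp]
          nlinarith
  refine lt_of_le_of_lt e1 ?_
  have e2 : Real.exp (-(1 / 2500 * (n : ℝ))) ≤ Real.exp (-1) :=
    Real.exp_le_exp.2 (by linarith)
  refine lt_of_le_of_lt e2 ?_
  have := Real.exp_neg_one_lt_d9
  have := Real.log_two_gt_d9
  linarith

theorem partIC (hA : PartIA_b) (hB : PartIB) (hB0 : PartIB0) : PartIC := by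
  obtain ⟨C, hC, hA'⟩ := hA
  intro ε0 hε0
  -- reduce to small ε
  obtain ⟨ε, hε, hε1, hε2⟩ : ∃ ε : ℝ, 0 < ε ∧ ε ≤ ε0 ∧ ε ≤ 1 / 250 :=
    ⟨min ε0 (1 / 250), lt_min hε0 (by norm_num), min_le_left _ _, min_le_right _ _⟩
  obtain ⟨B, hB1⟩ : ∃ B : ℕ, 4 / ε ≤ B := exists_nat_ge _
  have hBpos : (0 : ℝ) < B := lt_of_lt_of_le (by positivity) hB1
  have hB4 : 4 / (B : ℝ) ≤ ε := by
    rw [div_le_iff₀ hε] at hB1
    rw [div_le_iff₀ hBpos]
    linarith
  have hBn : 0 < B := by exact_mod_cast hBpos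
  obtain ⟨z, hz⟩ : ∃ z : ℝ, z = 1 / (B : ℝ) ^ 2 := ⟨_, rfl⟩
  have hz0 : 0 < z := by rw [hz]; positivity
  obtain ⟨K, hK⟩ : ∃ K : ℕ, K = B ^ 2 := ⟨_, rfl⟩
  have hKz : (K : ℝ) * z = 1 := by
    rw [hK, hz]; push_cast; field_simp
  have ha1 : (0 : ℝ) < 1 / (5 * B) := by positivity
  filter_upwards [ev_poly (2 * C + 16 * K * 328) hz0, ev_large (Real.log 64) ha1,
    eventually_ge_atTop (8 * B), ev_large 1 (a := 1 / 2500) (by norm_num),
    eventually_ge_atTop 1] with n h1 h2 h3 h4 h5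
  have hn1 : (1 : ℝ) ≤ n := by exact_mod_cast h5
  obtain ⟨t, ht⟩ : ∃ t : ℕ, t = n / B := ⟨_, rfl⟩
  have ht8 : 8 ≤ t := by
    rw [ht, Nat.le_div_iff_mul_le hBn]
    exact h3
  have htB : (t : ℝ) ≤ n / B := by
    rw [ht]; exact Nat.cast_div_le
  obtain ⟨A0, hA0⟩ : ∃ A0 : ℝ, A0 = Real.exp (z * n) := ⟨_, rfl⟩
  have hA01 : 1 ≤ A0 := by
    rw [hA0]
    exact Real.one_le_exp (by positivity)
  have hA0K : (2 : ℝ) ^ n < A0 ^ K := by
    rw [hA0, ← Real.exp_nat_mul]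
    have e1 : (K : ℝ) * (z * n) = n := by rw [← mul_assoc, hKz, one_mul]
    rw [e1]
    have e2 : (2 : ℝ) ^ n = Real.exp (n * Real.log 2) := by
      rw [Real.exp_nat_mul, Real.exp_log (by norm_num)]
    rw [e2, Real.exp_lt_exp]
    have := Real.log_two_lt_d9
    nlinarith
  obtain ⟨L, hL⟩ : ∃ L : ℝ, L = C * (n : ℝ) ^ 2 +
      8 * (K * (64 * (n : ℝ) * A0 * (2 * (n : ℝ) + 3) + 8)) := ⟨_, rfl⟩
  have hn2 : (1 : ℝ) ≤ (n : ℝ) ^ 2 := one_le_pow₀ hn1
  have hKnn : (0 : ℝ) ≤ K := Nat.cast_nonneg _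
  have hcn : 1 ≤ C * (n : ℝ) ^ 2 := by nlinarith
  have hL1 : C * (n : ℝ) ^ 2 ≤ L := by
    rw [hL]
    have : 0 ≤ 8 * (K * (64 * (n : ℝ) * A0 * (2 * (n : ℝ) + 3) + 8)) := by positivity
    linarith
  have hL2 : 8 * (K * (64 * (n : ℝ) * A0 * (2 * (n : ℝ) + 3) + 8)) ≤ L := by
    rw [hL]; linarith
  have hL3 : 1 ≤ L := by linarith
  -- bound for `2 L`
  have h2L : 2 * L ≤ Real.exp (2 / (B : ℝ) ^ 2 * n) := by
    have e1 : Real.exp (2 / (B : ℝ) ^ 2 * n) = Real.exp (z * n) * A0 := by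
      rw [hA0, ← Real.exp_add, hz]
      congr 1
      ring
    rw [e1]
    exact two_L_le hC hn1 hA01 hL h1
  have h2Lp : (2 * L) ^ B ≤ Real.exp (2 / B * n) := by
    calc (2 * L) ^ B ≤ Real.exp (2 / (B : ℝ) ^ 2 * n) ^ B :=
          pow_le_pow_left₀ (by linarith) h2L B
      _ = _ := by
          rw [← Real.exp_nat_mul]
          congr 1
          field_simp
  have h4t : (4 : ℝ) ^ (t + 3) ≤ Real.exp (2 / B * n) := four_pow_le hBpos htB h2
  have hF : (2 * L) ^ B * 4 ^ (t + 3) * GG n (mm n) ≤ Real.exp (ε * n) * GG n (mm n) := by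
    refine mul_le_mul_of_nonneg_right ?_ (GG_pos _ _).le
    calc (2 * L) ^ B * 4 ^ (t + 3) ≤ Real.exp (2 / B * n) * Real.exp (2 / B * n) :=
          mul_le_mul h2Lp h4t (by positivity) (Real.exp_pos _).le
      _ = Real.exp (4 / B * n) := by rw [← Real.exp_add]; congr 1; ring
      _ ≤ Real.exp (ε * n) := by
          rw [Real.exp_le_exp]
          exact mul_le_mul_of_nonneg_right hB4 (by linarith)
  have hFl : (2 * L) ^ B * 4 ^ (t + 3) * GG n (mm n) < Real.log 2 :=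
    lt_of_le_of_lt hF (exp_mul_GG_lt hε2 h4)
  obtain ⟨q, hq⟩ : ∃ q : ℕ, q + 1 = B := ⟨B - 1, by omega⟩
  have hmq : mm n < (q + 1) * t := by
    rw [hq]
    unfold mm
    have e1 : n < B * (n / B) + B := by
      have := Nat.div_add_mod n B
      have := Nat.mod_lt n hBn
      omega
    rw [← ht] at e1
    omega
  have hmain := cnt_rec hB hB0 hC hA' (n0 := n) (t := t) (K := K) (A0 := A0) (L := L) ht8 hA01 hA0K
    hL1 hL2 hL3 q (mm n) (Fin n) (by simp) hmq (by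
      rw [hq]; simpa using hFl)
  rw [hq] at hmain
  refine hmain.mono ?_
  simp only [Fintype.card_fin]
  refine hF.trans ?_
  refine mul_le_mul_of_nonneg_right ?_ (GG_pos _ _).le
  rw [Real.exp_le_exp]
  exact mul_le_mul_of_nonneg_right hε1 (by linarith)

end P047F
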