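import Vale.Agent.Lib.P047F.I.IDefs

/-!
# P047 Part I.C: the recursion
-/

open Finset Filter

namespace P047F

theorem GG_pos (n m : ℕ) : 0 < GG n m := by unfold GG; positivity

theorem Cnt.mono {ι : Type} [Fintype ι] [DecidableEq ι] {m : ℕ} {ρ F F' : ℝ} (h : Cnt ι m ρ F)
    (hF : F ≤ F') : Cnt ι m ρ F' := by
  intro M hM P hP hP'
  refine (h M hM P hP hP').trans (Real.exp_le_exp.2 ?_)
  exact mul_le_mul_of_nonneg_right hF (by linarith)

/-- `G (n - t) (m - t) = 2^(-t) G n m` -/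
theorem GG_sub {n m t n' : ℕ} (hn : n' + t = n) (hm : t ≤ m) : 2 ^ t * GG n' (m - t) = GG n m := by
  obtain ⟨k, rfl⟩ := Nat.exists_eq_add_of_le hm
  subst hn
  have : t + k - t = k := by omega
  rw [this]
  unfold GG
  rw [pow_add, pow_add]
  have h : (3 : ℝ) ^ t * (2 / 3) ^ t = 2 ^ t := by rw [← mul_pow]; norm_num
  calc (2 : ℝ) ^ t * (3 ^ k * (2 / 3) ^ n') = (3 ^ t * (2 / 3) ^ t) * (3 ^ k * (2 / 3) ^ n') := by
        rw [h]
    _ = _ := by ring

theorem lt_of_GG {n m T : ℕ} (h : 4 ^ T * GG n m < 1) : T < n ∧ m ≤ n := by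
  have h3 : (1 : ℝ) ≤ 3 ^ m := one_le_pow₀ (by norm_num)
  have h4 : (1 : ℝ) ≤ 4 ^ T := one_le_pow₀ (by norm_num)
  have hG := GG_pos n m
  constructor
  · by_contra hT
    push Not at hT
    have h1 : (4 : ℝ) ^ n ≤ 4 ^ T := pow_le_pow_right₀ (by norm_num) hT
    have h2 : (1 : ℝ) ≤ 4 ^ n * (2 / 3) ^ n := by
      rw [← mul_pow]
      exact one_le_pow₀ (by norm_num)
    have h5 : (1 : ℝ) ≤ 4 ^ T * GG n m := by
      unfold GG
      have h6 : (0 : ℝ) < (2 / 3) ^ n := by positivity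
      calc (1 : ℝ) ≤ 4 ^ n * (2 / 3) ^ n := h2
        _ ≤ 4 ^ T * (2 / 3) ^ n := mul_le_mul_of_nonneg_right h1 h6.le
        _ = 4 ^ T * (1 * (2 / 3) ^ n) := by ring
        _ ≤ 4 ^ T * (3 ^ m * (2 / 3) ^ n) := by gcongr
    linarith
  · by_contra hm
    push Not at hm
    have h1 : (3 : ℝ) ^ n ≤ 3 ^ m := pow_le_pow_right₀ (by norm_num) hm.le
    have h2 : (1 : ℝ) ≤ GG n m := by
      unfold GG
      have h6 : (0 : ℝ) < (2 / 3) ^ n := by positivity
      calc (1 : ℝ) ≤ 2 ^ n := one_le_pow₀ (by norm_num)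
        _ = 3 ^ n * (2 / 3) ^ n := by rw [← mul_pow]; norm_num
        _ ≤ 3 ^ m * (2 / 3) ^ n := mul_le_mul_of_nonneg_right h1 h6.le
    nlinarith

/-- the recursion for fixed parameters -/
theorem cnt_rec (hB : PartIB) (hB0 : PartIB0) {C : ℝ} (hC : 1 ≤ C)
    (hA : ∀ (ι : Type) [Fintype ι] [DecidableEq ι] (m s : ℕ) (F : ℝ),
      8 ≤ Fintype.card ι → m ≤ Fintype.card ι → s ≤ Fintype.card ι → 0 ≤ F →
      Cnt ι m ((1 / 2) ^ s / 4096) F →
      Cnt ι m (1 / 4096)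
        (C * (Fintype.card ι : ℝ) ^ 2 * 4 ^ s * GG (Fintype.card ι) m + 8 * F))
    {n0 t K : ℕ} {A0 L : ℝ} (ht : 8 ≤ t) (hA0 : 1 ≤ A0) (hK : (2 : ℝ) ^ n0 < A0 ^ K)
    (hL1 : C * (n0 : ℝ) ^ 2 ≤ L)
    (hL2 : 8 * (K * (64 * (n0 : ℝ) * A0 * (2 * (n0 : ℝ) + 3) + 8)) ≤ L) (hL : 1 ≤ L) :
    ∀ (q : ℕ) (m : ℕ) (ι : Type) [Fintype ι] [DecidableEq ι], Fintype.card ι ≤ n0 →
      m < (q + 1) * t →
      (2 * L) ^ (q + 1) * 4 ^ (t + 3) * GG (Fintype.card ι) m < Real.log 2 →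
      Cnt ι m (1 / 4096) ((2 * L) ^ (q + 1) * 4 ^ (t + 3) * GG (Fintype.card ι) m) := by
  have hlog : Real.log 2 < 1 := by
    have := Real.log_two_lt_d9
    linarith
  -- the base case
  have hbase : ∀ (q : ℕ) (m : ℕ) (ι : Type) [Fintype ι] [DecidableEq ι], Fintype.card ι ≤ n0 →
      m < t →
      (2 * L) ^ (q + 1) * 4 ^ (t + 3) * GG (Fintype.card ι) m < Real.log 2 →
      Cnt ι m (1 / 4096) ((2 * L) ^ (q + 1) * 4 ^ (t + 3) * GG (Fintype.card ι) m) := by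
    intro q m ι _ _ hn hm hF
    have hG := GG_pos (Fintype.card ι) m
    have h2L : (1 : ℝ) ≤ (2 * L) ^ (q + 1) := one_le_pow₀ (by linarith)
    have h2L' : 2 * L ≤ (2 * L) ^ (q + 1) := by
      calc 2 * L = (2 * L) ^ 1 := (pow_one _).symm
        _ ≤ _ := pow_le_pow_right₀ (by linarith) (by omega)
    have h4 : (0 : ℝ) < 4 ^ (t + 3) := by positivity
    have h1 : 4 ^ (t + 3) * GG (Fintype.card ι) m < 1 := by
      have : 4 ^ (t + 3) * GG (Fintype.card ι) m ≤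
          (2 * L) ^ (q + 1) * (4 ^ (t + 3) * GG (Fintype.card ι) m) :=
        le_mul_of_one_le_left (by positivity) h2L
      nlinarith
    obtain ⟨h5, h6⟩ := lt_of_GG h1
    have h7 := hA ι m (m + 2) 0 (by omega) h6 (by omega) le_rfl (hB0 ι m (m + 2) le_rfl)
    refine h7.mono ?_
    have hnn : (Fintype.card ι : ℝ) ≤ n0 := by exact_mod_cast hn
    have h8 : C * (Fintype.card ι : ℝ) ^ 2 ≤ L := by
      refine le_trans ?_ hL1
      have : (0 : ℝ) ≤ Fintype.card ι := Nat.cast_nonneg _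
      gcongr
    have h9 : (4 : ℝ) ^ (m + 2) ≤ 4 ^ (t + 3) := pow_le_pow_right₀ (by norm_num) (by omega)
    have h10 : (0 : ℝ) < 4 ^ (m + 2) := by positivity
    calc C * (Fintype.card ι : ℝ) ^ 2 * 4 ^ (m + 2) * GG (Fintype.card ι) m + 8 * 0
        = C * (Fintype.card ι : ℝ) ^ 2 * 4 ^ (m + 2) * GG (Fintype.card ι) m := by ring
      _ ≤ (2 * L) ^ (q + 1) * 4 ^ (t + 3) * GG (Fintype.card ι) m := by
          refine mul_le_mul_of_nonneg_right ?_ hG.le
          exact mul_le_mul (by linarith) h9 h10.le (by linarith)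
  intro q
  induction q with
  | zero =>
    intro m ι _ _ hn hm hF
    exact hbase 0 m ι hn (by omega) hF
  | succ q ih =>
    intro m ι _ _ hn hm hF
    by_cases hmt : m < t
    · exact hbase (q + 1) m ι hn hmt hF
    push Not at hmt
    have hG := GG_pos (Fintype.card ι) m
    have h2L : (1 : ℝ) ≤ (2 * L) ^ (q + 1) := one_le_pow₀ (by linarith)
    have h2L2 : (1 : ℝ) ≤ (2 * L) ^ (q + 1 + 1) := one_le_pow₀ (by linarith)
    have h4 : (0 : ℝ) < 4 ^ (t + 3) := by positivity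
    have h1 : 4 ^ (t + 3) * GG (Fintype.card ι) m < 1 := by
      have : 4 ^ (t + 3) * GG (Fintype.card ι) m ≤
          (2 * L) ^ (q + 1 + 1) * (4 ^ (t + 3) * GG (Fintype.card ι) m) :=
        le_mul_of_one_le_left (by positivity) h2L2
      nlinarith
    obtain ⟨h5, h6⟩ := lt_of_GG h1
    obtain ⟨n', hn'⟩ : ∃ n', n' + t = Fintype.card ι := ⟨Fintype.card ι - t, by omega⟩
    obtain ⟨F', hF'⟩ : ∃ F', F' = (2 * L) ^ (q + 1) * 4 ^ (t + 3) * GG n' (m - t) := ⟨_, rfl⟩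
    have hF'0 : 0 ≤ F' := by
      rw [hF']
      have := GG_pos n' (m - t)
      positivity
    have h2t : (2 : ℝ) ^ t * F' = (2 * L) ^ (q + 1) * 4 ^ (t + 3) * GG (Fintype.card ι) m := by
      rw [← GG_sub hn' hmt, hF']; ring
    have h2t1 : (1 : ℝ) ≤ 2 ^ t := one_le_pow₀ (by norm_num)
    have hX0 : 0 < (2 * L) ^ (q + 1) * 4 ^ (t + 3) * GG (Fintype.card ι) m := by positivity
    have hXl : (2 * L) ^ (q + 1) * 4 ^ (t + 3) * GG (Fintype.card ι) m < Real.log 2 := by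
      have : (2 * L) ^ (q + 1 + 1) * 4 ^ (t + 3) * GG (Fintype.card ι) m =
          (2 * L) * ((2 * L) ^ (q + 1) * 4 ^ (t + 3) * GG (Fintype.card ι) m) := by ring
      rw [this] at hF
      nlinarith
    have hF'l : F' < Real.log 2 := by nlinarith
    have hrec : ∀ (κ : Type) [Fintype κ] [DecidableEq κ], Fintype.card κ + t = Fintype.card ι →
        Cnt κ (m - t) (1 / 4096) F' := by
      intro κ _ _ hκ
      have hc : Fintype.card κ = n' := by omega
      have := ih (m - t) κ (by omega) (by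
        have : (q + 1 + 1) * t = (q + 1) * t + t := by ring
        omega) (by rw [hc, ← hF']; exact hF'l)
      rwa [hc, ← hF'] at this
    have hch : (((Fintype.card ι).choose t : ℕ) : ℝ) < A0 ^ K := by
      refine lt_of_le_of_lt ?_ hK
      have h7 : (Fintype.card ι).choose t ≤ 2 ^ (Fintype.card ι) := Nat.choose_le_two_pow _ _
      have h8 : (2 : ℕ) ^ (Fintype.card ι) ≤ 2 ^ n0 := Nat.pow_le_pow_right (by norm_num) hn
      exact_mod_cast h7.trans h8
    have hs := hB ι m t K A0 F' (by omega) (by omega) hmt h6 hA0 hch hF'0 hF'l hrec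
    have hnn : (Fintype.card ι : ℝ) ≤ n0 := by exact_mod_cast hn
    have hn00 : (0 : ℝ) ≤ Fintype.card ι := Nat.cast_nonneg _
    have hFs0 : 0 ≤ K * F' * 2 ^ t *
        (64 * (Fintype.card ι : ℝ) * A0 * (2 * (Fintype.card ι : ℝ) + 3) + 8) := by
      have : (0 : ℝ) ≤ A0 := by linarith
      positivity
    have h7 := hA ι m (t + 1) _ (by omega) h6 (by omega) hFs0 hs
    refine h7.mono ?_
    have h8 : C * (Fintype.card ι : ℝ) ^ 2 ≤ L := by
      refine le_trans ?_ hL1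
      gcongr
    have h9 : 8 * (K * (64 * (Fintype.card ι : ℝ) * A0 * (2 * (Fintype.card ι : ℝ) + 3) + 8)) ≤ L := by
      refine le_trans ?_ hL2
      have : (0 : ℝ) ≤ A0 := by linarith
      gcongr
    have h10 : C * (Fintype.card ι : ℝ) ^ 2 * 4 ^ (t + 1) * GG (Fintype.card ι) m ≤
        L * ((2 * L) ^ (q + 1) * 4 ^ (t + 3) * GG (Fintype.card ι) m) := by
      have h11 : (4 : ℝ) ^ (t + 1) ≤ 4 ^ (t + 3) := pow_le_pow_right₀ (by norm_num) (by omega)
      calc C * (Fintype.card ι : ℝ) ^ 2 * 4 ^ (t + 1) * GG (Fintype.card ι) m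
          ≤ L * 4 ^ (t + 3) * GG (Fintype.card ι) m := by
            refine mul_le_mul_of_nonneg_right ?_ hG.le
            exact mul_le_mul h8 h11 (by positivity) (by linarith)
        _ = L * (1 * 4 ^ (t + 3) * GG (Fintype.card ι) m) := by ring
        _ ≤ _ := by gcongr
    have h12 : 8 * (K * F' * 2 ^ t *
        (64 * (Fintype.card ι : ℝ) * A0 * (2 * (Fintype.card ι : ℝ) + 3) + 8)) ≤
        L * ((2 * L) ^ (q + 1) * 4 ^ (t + 3) * GG (Fintype.card ι) m) := by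
      calc 8 * (K * F' * 2 ^ t *
            (64 * (Fintype.card ι : ℝ) * A0 * (2 * (Fintype.card ι : ℝ) + 3) + 8))
          = (8 * (K * (64 * (Fintype.card ι : ℝ) * A0 * (2 * (Fintype.card ι : ℝ) + 3) + 8))) *
            (2 ^ t * F') := by ring
        _ = (8 * (K * (64 * (Fintype.card ι : ℝ) * A0 * (2 * (Fintype.card ι : ℝ) + 3) + 8))) *
            ((2 * L) ^ (q + 1) * 4 ^ (t + 3) * GG (Fintype.card ι) m) := by rw [h2t]
        _ ≤ _ := mul_le_mul_of_nonneg_right h9 hX0.le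
    calc _ ≤ L * ((2 * L) ^ (q + 1) * 4 ^ (t + 3) * GG (Fintype.card ι) m) +
          L * ((2 * L) ^ (q + 1) * 4 ^ (t + 3) * GG (Fintype.card ι) m) := add_le_add h10 h12
      _ = _ := by ring

end P047F
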